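import Vale.Agent.P281.H575.MFS.End
import Vale.Agent.P281.H342.MFS.Adj
import Vale.Agent.P281.H342.MFS.SecMix
import Vale.Agent.P281.H949.MFS.RkM
import Vale.Agent.P281.H776.KD.FK
import Vale.Agent.P281.H368.MFS.Iface

/-! P281, theorem MFS, row M-AF: assembly on the fibre. -/

open scoped Manifold ContDiff Topology ComplexOrder Matrix
open Set Filter Vale.Agent.P281 Vale.Agent.P281.MF Vale.Agent.P272.K Vale.Agent.P299
open Vale.Agent.P285.TM Vale.Agent.P285.H591.TM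
open Vale.Agent.P281.H949.SA Vale.Agent.P281.H716 Vale.Agent.P281.H716.IsSys
open Vale.Agent.P272.K.AMP (hess)
open Vale.Agent.P272.K.INT (IsClosedForm)
open Vale.Agent.P281.H342.KD Vale.Agent.P281.H342.KG
open Vale.Agent.P281.H776.KD (isClosedForm_pullM psd_pull adjF mem_iffE)
open Vale.Agent.P281.H368.MFS

set_option linter.all false

noncomputable section

namespace Vale.Agent.P281.H575.MFS

open Vale.Agent.P281.H949.GM (holAt_ev)
open Vale.Agent.P281.H167.GM (mixX addF isClosed_addF psd_real_smul)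

section pull

variable {n d : ℕ} {X F : Type} [TopologicalSpace X] [ChartedSpace (Cm n) X]
  [IsManifold 𝓘(ℂ, Cm n) ω X] [TopologicalSpace F] [ChartedSpace (Cm d) F]
  [IsManifold 𝓘(ℂ, Cm d) ω F] {ι : F → X}

/-- the pull-back of a semipositive form -/
theorem isSemiPos_pull (hι : ContMDiff 𝓘(ℂ, Cm d) 𝓘(ℂ, Cm n) ω ι) {α : D.FormM n X}
    (h : IsSemiPos α) : IsSemiPos (n := d) (X := F) (pull ι α : D.FormM d F) := by
  have h1 : IsClosedForm (D.pullM ι α : D.FormM d F) := isClosedForm_pullM h.isClosedForm hι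
  exact
    { smooth := h1.smooth
      posSemidef := fun e x _ => psd_pull (h.posSemidef _ _ ⟨chart_mem_atlas _ _,
        mem_chart_source _ _⟩)
      change := h1.form
      closed := fun e x hx i j k => h1.closed e x hx k i j }

lemma rep_ι' (hι : ContMDiff 𝓘(ℂ, Cm d) 𝓘(ℂ, Cm n) ω ι) {e : Chart d F} {E : Chart n X} {t : F}
    (h : At e t) (hE : At E (ι t)) : ContDiffAt ℂ ω (fun z => E (ι (e.symm z))) (e t) := by
  have h1 : HolV (Cm n) (E : X → Cm n) (ι t) :=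
    contMDiffAt_of_mem_maximalAtlas (IsManifold.subset_maximalAtlas hE.1) hE.2
  exact holV_chart h (HolV.comp (f := ι) h1 (hι t))

/-- composition of a smooth function with `ι` -/
lemma smooth_ι' (hι : ContMDiff 𝓘(ℂ, Cm d) 𝓘(ℂ, Cm n) ω ι) {u : X → ℝ} {N : WithTop ℕ∞}
    (hN : N ≤ ω) {e : Chart d F} {t : F}
    (h : At e t) (hu : ∀ E : Chart n X, At E (ι t) → ContDiffAt ℝ N (fun z => u (E.symm z)) (E (ι t))) :
    ContDiffAt ℝ N (fun z => u (ι (e.symm z))) (e t) := by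
  have hE : At (chartAt (Cm n) (ι t)) (ι t) := ⟨chart_mem_atlas _ _, mem_chart_source _ _⟩
  set E : Chart n X := chartAt (Cm n) (ι t)
  have h1 := (rep_ι' hι h hE).restrict_scalars ℝ
  have h2 : ContDiffAt ℝ N (fun z => u (E.symm (E (ι (e.symm z))))) (e t) := by
    refine ContDiffAt.comp (e t) (g := fun z => u (E.symm z)) ?_ (h1.of_le hN)
    rw [h.left_inv]
    exact hu E hE
  refine h2.congr_of_eventuallyEq ?_
  have h3 : ContinuousAt (fun z => ι (e.symm z)) (e t) := by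
    refine ContinuousAt.comp (g := ι) ?_ (e.continuousAt_symm h.mem_target)
    exact hι.continuous.continuousAt
  have h4 : ι (e.symm (e t)) ∈ E.source := by
    rw [h.left_inv]
    exact hE.2
  filter_upwards [h3.preimage_mem_nhds (E.open_source.mem_nhds h4)] with z hz
  rw [E.left_inv hz]

/-- the complex Hessian of a pull-back -/
lemma cHess_ι' (hι : ContMDiff 𝓘(ℂ, Cm d) 𝓘(ℂ, Cm n) ω ι) {u : X → ℝ} {e : Chart d F} {t : F}
    (h : At e t) (hu : ∀ E : Chart n X, At E (ι t) →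
      ContDiffAt ℝ 2 (fun z => u (E.symm z)) (E (ι t))) :
    cHess (fun z => u (ι (e.symm z))) (e t) =
      (H368.MFS.jacI ι e (chartAt (Cm n) (ι t)) t).transpose *
        cHess (fun z => u ((chartAt (Cm n) (ι t)).symm z)) (chartAt (Cm n) (ι t) (ι t)) *
        (H368.MFS.jacI ι e (chartAt (Cm n) (ι t)) t).map (starRingEnd ℂ) := by
  have hE : At (chartAt (Cm n) (ι t)) (ι t) := ⟨chart_mem_atlas _ _, mem_chart_source _ _⟩
  set E : Chart n X := chartAt (Cm n) (ι t)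
  have h1 := rep_ι' hι h hE
  have h5 : E (ι (e.symm (e t))) = E (ι t) := by
    rw [h.left_inv]
  have h2 := Vale.Agent.P299.H956.cHess_compR (f := fun z => u (E.symm z))
    (τ := fun z => E (ι (e.symm z))) (z := e t) (by rw [h5]; exact hu E hE) h1
  rw [h5] at h2
  have h3 : ContinuousAt (fun z => ι (e.symm z)) (e t) := by
    refine ContinuousAt.comp (g := ι) ?_ (e.continuousAt_symm h.mem_target)
    exact hι.continuous.continuousAt
  have h4 : ι (e.symm (e t)) ∈ E.source := by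
    rw [h.left_inv]
    exact hE.2
  have h6 : (fun z => u (ι (e.symm z))) =ᶠ[𝓝 (e t)]
      fun z => u (E.symm (E (ι (e.symm z)))) := by
    filter_upwards [h3.preimage_mem_nhds (E.open_source.mem_nhds h4)] with z hz
    rw [E.left_inv hz]
  rw [C2.cHess_congr h6]
  exact h2

theorem det_ne_of_inj' {A : Cm n →L[ℂ] Cm n} (hA : Function.Injective A) : A.det ≠ 0 := by
  have h2 : LinearMap.ker (A : Cm n →ₗ[ℂ] Cm n) = ⊥ := LinearMap.ker_eq_bot.2 hA
  have h3 := (LinearMap.isUnit_iff_ker_eq_bot _).2 h2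
  exact (LinearMap.isUnit_det _ h3).ne_zero

/-- the restriction of a singular volume form -/
theorem volLoc_fib (hι : ContMDiff 𝓘(ℂ, Cm d) 𝓘(ℂ, Cm n) ω ι) {G : F → ℂ}
    (hG : H167.GM.IsAdj (n := n) (d := d) ι G) {m : ℕ} {k : Set X → ℕ} {W : X → ℝ}
    {α θ : D.FormM n X} {t : F} {r : ℕ} {g : Fin r → X → ℂ} {a : Fin r → ℕ}
    (hV : VolLoc n m (fun (D : Set X) z g => J.IsLocalEq (Cm n) D g z) k W α θ (ι t) g a)
    (hdif : ∀ l, J.dif (Cm d) (fun t => g l (ι t)) t ≠ 0) :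
    VolLoc d m (H776.KD.eqF n ι) k (fun t => W (ι t) * ‖G t ^ m‖ ^ 2) (pull ι α) (pull ι θ) t
      (fun l t => g l (ι t)) a := by
  obtain ⟨T', q, u, h1, h2, h3, h4⟩ := hV.loc
  have hιc : ContinuousAt ι t := hι.continuous.continuousAt
  have hu2 := smooth2_ev (ψ := u) fun e he => (h3 e he).of_le two_le_infty
  obtain ⟨u', hu', hev'⟩ := H342.MFS.locW_adj (ι := ι) hG (m := m) (W := W) (t₀ := t)
    (g := fun l t => g l (ι t)) (a := a) (u := fun t => u (ι t))
    (B := fun e z => pull ι θ e z - pull ι α e z) (Q := fun t => ∏ D ∈ T', q D (ι t) ^ k D)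
    (fun e he => smooth_ι' hι (by exact le_top) he h3) (by
      filter_upwards [hιc.eventually h4, hιc.eventually hu2] with z h5 h8
      refine ⟨fun c hc => ?_, fun h9 => h5.2 h9⟩
      show pull ι θ c (c z) - pull ι α c (c z) = cHess (fun y => u (ι (c.symm y))) (c z)
      rw [cHess_ι' hι hc h8,
        ← h5.1 (chartAt (Cm n) (ι z)) ⟨chart_mem_atlas _ _, mem_chart_source _ _⟩]
      unfold H368.MFS.pull
      rw [hc.left_inv, Matrix.mul_sub, Matrix.sub_mul])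
  exact ⟨fun l => ⟨HolV.comp (f := ι) (hV.holg l).1 (hι t), hdif l⟩, T', fun D z => q D (ι z), u',
    h1, fun D hD => ⟨q D, h2 D hD, Eventually.of_forall fun _ => rfl⟩, hu', hev'⟩

end pull

section loc

variable {n : ℕ} {X : Type} [TopologicalSpace X] [ChartedSpace (Cm n) X]
  [IsManifold 𝓘(ℂ, Cm n) ω X] {κ : Type} {eqn : κ → X → (X → ℂ) → Prop} {T : Finset κ}
  {M : ℕ} {Dv : Fin M → κ} {ψ : Fin M → X → X → ℝ} {φ : Chart n X → Cm n → ℝ} {k : κ → ℕ} {m : ℕ}
  {dl : Fin M → ℝ} {W : X → ℝ}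

/-- the local form of the function `ρ` of a singular volume form -/
theorem locAt_vol (h : IsSys n eqn T) (hprod : ∀ f : κ → ℂ, ∏ i, f (Dv i) = ∏ D ∈ T, f D)
    (hDv : ∀ i, Dv i ∈ T) (hψ : ∀ i, Wt (OD h (Dv i) (hDv i)) (ψ i)) (hφ : IsCanonicalMetric φ)
    (hk : ∀ D, k D ≠ 0 → D ∈ T) (hkd : ∀ i, (k (Dv i) : ℝ) = m * dl i) {α θ : D.FormM n X}
    {x : X} {r : ℕ} {g : Fin r → X → ℂ} {a : Fin r → ℕ} (hV : VolLoc n m eqn k W α θ x g a) :
    ∃ w : X → ℂ, H167.KG.LocAt m (fun e z => H713.KD.clsK φ dl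
        (fun i => cv (OD h (Dv i) (hDv i)) (ψ i)) e z - (θ e z - α e z))
        (H342.MFS.rhoW h Dv ψ φ k m W) x g a (fun _ : Fin 1 => w) := by
  obtain ⟨T', q, u, h1, h2, h3, h4⟩ := hV.loc
  obtain ⟨w, -, -, hL⟩ := H342.MFS.locW (dl := dl) (W := W)
    (B := fun e z => θ e z - α e z) (u := u) h hprod hDv hψ hφ hk hkd h1 h2 hV.holg h3 h4
  exact ⟨w, hL⟩

end loc

/-- **Row M-AF**. -/
theorem fibPartM (hgr : GrowthPartM) (hcon : ConPartM) : FibPartM := by
  classical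
  intro n p d hnpd X Z Y F _ _ _ _ _ _ _ _ _ _ _ _ _ _ _ _ _ _ _ _ χ hχ Δ hΔ m hm k hk α θ hα hθ
    ν hν hrkθ W j hj f hf i hi hne hd νF hνF hloc hker m₁ hm₁ k₁ hk₁ σ hσ t₀ ht₀
  by_contra hσ0
  haveI : Nonempty F := ⟨t₀⟩
  -- the divisors
  set T : Finset (Set X) := hΔ.1.toFinset with hTdef
  have hTΔ : ∀ D, D ∈ T ↔ Δ D ≠ 0 := fun D => Set.Finite.mem_toFinset _
  have hTex : ∀ D ∈ T, ∀ x, ∃ g, J.IsLocalEq (Cm n) D g x := fun D hD =>
    (hΔ.2.1 D ((hTΔ D).1 hD)).2.1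
  have hkT' : ∀ (m : ℕ), 0 < m → ∀ k : Set X → ℕ, (∀ D, (k D : ℝ) = m * Δ D) → ∀ D, k D ≠ 0 ↔ D ∈ T := by
    intro m hm k hk D
    rw [hTΔ]
    have h1 : (m : ℝ) ≠ 0 := by exact_mod_cast hm.ne'
    constructor
    · intro h2 h3
      have := hk D
      rw [h3, mul_zero] at this
      exact h2 (by exact_mod_cast this)
    · intro h2 h3
      have := hk D
      rw [h3, Nat.cast_zero] at this
      exact mul_ne_zero h1 h2 this.symm
  have hjh : ∀ z, HolM (Cm n) (Cm n) j z := fun z => hj.1 z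
  have hfh : ∀ z, HolM (Cm n) (Cm p) f z := fun z => hf z
  have hih : ∀ z, HolM (Cm d) (Cm n) i z := fun z => hi.hol z
  have hι : ContMDiff 𝓘(ℂ, Cm d) 𝓘(ℂ, Cm n) ω (fun t => j (i t)) := fun t =>
    ContMDiffAt.comp t (hjh (i t)) (hih t)
  have hsF : IsSys d (H776.KD.eqF n (fun t => j (i t))) T :=
    H776.KD.isSys_eqF hι hTex fun D hD => hne D ((hTΔ D).1 hD)
  have hjd : ∀ z, (dM (Cm n) (Cm n) j z).det ≠ 0 := fun z => det_ne_of_inj' (hj.2.2.1 z)
  obtain ⟨G, hG0, hG⟩ := adjF (n := n) (p := p) (d := d) hnpd hjh hjd hfh hi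
  have himm : ∀ t, Function.Injective (mfderiv 𝓘(ℂ, Cm d) 𝓘(ℂ, Cm n) (fun t => j (i t)) t) := by
    intro t
    have h1 : mfderiv 𝓘(ℂ, Cm d) 𝓘(ℂ, Cm n) (fun t => j (i t)) t =
        (mfderiv 𝓘(ℂ, Cm n) 𝓘(ℂ, Cm n) j (i t)).comp (mfderiv 𝓘(ℂ, Cm d) 𝓘(ℂ, Cm n) i t) :=
      mfderiv_comp t ((hjh (i t)).mdifferentiableAt (by simp))
        ((hih t).mdifferentiableAt (by simp))
    rw [h1]
    exact (hj.2.2.1 (i t)).comp (hi.immersive t)
  obtain ⟨χF, hχF⟩ := H167.SA.pullPart n d X F (fun t => j (i t)) hι himm χ hχ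
  -- the enumeration of the divisors, the metrics
  set Dv : Fin T.card → Set X := fun l => (T.equivFin.symm l : Set X) with hDvdef
  have hDv : ∀ l, Dv l ∈ T := fun l => (T.equivFin.symm l).2
  have hprod : ∀ f : Set X → ℂ, ∏ l, f (Dv l) = ∏ D ∈ T, f D := by
    intro f
    rw [← Finset.prod_coe_sort T]
    exact Equiv.prod_comp T.equivFin.symm fun D : T => f D
  choose ψ hψ using fun l : Fin T.card => Vale.Agent.P285.H281.KN.exists_wt (OD hsF (Dv l) (hDv l))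
  have hφ := Vale.Agent.P272.S2B.isCanonical_log_det hχF.toIsHermitian
  set φ : Chart d F → Cm d → ℝ := fun e z => Real.log (χF e z).det.re with hφdef
  set dl : Fin T.card → ℝ := fun l => Δ (Dv l) with hdldef
  have hαF : IsSemiPos (pull (fun t => j (i t)) α) := isSemiPos_pull hι hα
  have hθF : IsSemiPos (pull (fun t => j (i t)) θ) := isSemiPos_pull hι hθ
  set αF : D.FormM d F := pull (fun t => j (i t)) α with hαFdef
  set θF : D.FormM d F := pull (fun t => j (i t)) θ with hθFdef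
  obtain ⟨ν', e, x, hx, hP, hrk, hmax⟩ := exists_point hθF.isClosedForm hαF.isClosedForm
    hαF.posSemidef hd
  have hνF' : νF ≤ ν' := by
    obtain ⟨t, ht⟩ := hνF
    exact ht.trans (hmax _ _ ⟨chart_mem_atlas _ _, mem_chart_source _ _⟩)
  -- the rank
  have hrP : ν' + p ≤ ν := by
    rw [← hrk]
    refine H949.MFS.rank_fibreX hnpd hθ.change (fun e x hx a b => (hθ.smooth e x hx a b).continuousAt)
      hrkθ hj.1 hj.2.2.1 hf hi (hker.mono ?_) hx
    intro z hz v hv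
    exact hz v (mem_KH.1 hv)
  have hν'd : ν' < d := by omega
  -- the class of `K + Δ`
  set cl : D.FormM d F := H713.KD.clsK φ dl (fun l => cv (OD hsF (Dv l) (hDv l)) (ψ l)) with hcldef
  have hcl : IsClosedForm cl := closed_cls (fun l => isClosedForm_cv (hψ l)) hφ
  set Λ : D.FormM d F := fun e z => cl e z - (θF e z - αF e z) with hΛdef
  have hΛ : IsClosedForm Λ := by
    have h1 := (hcl.add hαF.isClosedForm).add (hθF.isClosedForm.smul (-1))
    have h2 : (fun (e : Chart d F) z => (cl e z + αF e z) + (-1 : ℂ) • θF e z) = Λ := by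
      funext e z
      rw [hΛdef]
      simp only [neg_smul, one_smul]
      abel
    rw [← h2]
    exact h1
  set ρ : F → ℝ := H342.MFS.rhoW hsF Dv ψ φ k m (fun t => W (j (i t)) * ‖G t ^ m‖ ^ 2) with hρdef
  have hlocF : ∀ t : F, ∃ (r : ℕ) (g : Fin r → F → ℂ) (a : Fin r → ℕ) (w : F → ℂ),
      H167.KG.LocAt m Λ ρ t g a (fun (_ : Fin 1) => w) ∧
      ∀ᶠ z in 𝓝 t, ∀ l, g l z = 0 → ConAt d (g l) αF θF z ∨ SmallAt d ν' (g l) θF z := by
    intro t
    obtain ⟨r, g, a, hV, hdif, hev⟩ := hloc t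
    have hVF := volLoc_fib hι hG hV hdif
    obtain ⟨w, hL⟩ := locAt_vol (dl := dl) hsF hprod hDv hψ hφ (fun D => (hkT' m hm k hk D).1)
      (fun l => hk (Dv l)) hVF
    have hhol : ∀ᶠ s in 𝓝 t, ∀ l, J.HolAt (Cm n) (g l) (j (i s)) := by
      rw [eventually_all]
      intro l
      exact hι.continuous.continuousAt.eventually (holAt_ev (hV.holg l).1)
    refine ⟨r, fun l t => g l (j (i t)), a, w, hL, ?_⟩
    filter_upwards [hev, hhol] with s h1 h2 l hl
    rcases h1 l hl with h | h | h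
    · exact Or.inl (hcon n p d hnpd X Z Y F j hj f hf i hi α θ hα hθ hker ν hrkθ (g l) s (h2 l) h)
    · exact Or.inl h
    · right
      obtain ⟨K, hK1, hK2⟩ := h
      exact ⟨K, hK1.trans (Nat.add_le_add_right hνF' _), hK2⟩
  obtain ⟨-, -, -, hρs, hρ0, -⟩ := H342.KG.formPartG d F χF hχF m hm Λ hΛ ρ fun t => by
    obtain ⟨r, g, a, w, hL, -⟩ := hlocF t
    exact ⟨r, 1, g, a, fun _ => w, hL⟩
  obtain ⟨C₁, hC₁⟩ := hgr d F χF hχF m hm Λ hΛ ρ hρs hρ0 αF θF hαF hθF ν' hmax hlocF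
  -- the section
  have hoff : ∃ x ∈ off (H776.KD.eqF n (fun t => j (i t))) T, σ x ≠ 0 := by
    refine ⟨t₀, (H776.KD.off_eqF hι hTex).2 fun D hD hmem => ?_, hσ0⟩
    obtain ⟨g, ⟨e', he', hev'⟩, hg⟩ := ht₀ D ((hkT' m₁ hm₁ k₁ hk₁ D).2 hD)
    rw [hev'.self_of_nhds] at hg
    exact hg ((mem_iffE he').1 hmem)
  have hnn : ∀ s : ℝ, 0 ≤ s → 0 ≤ mixX (addF αF s θF) cl := fun s hs =>
    H342.MFS.mix_nonneg_sec (m := m₁) (k := k₁) (s := σ) hsF hprod hDv hψ hφ
      (fun D => (hkT' m₁ hm₁ k₁ hk₁ D).1) (fun l => hk₁ (Dv l)) hm₁ hσ hoff hχF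
      (isClosed_addF hαF.isClosedForm hθF.isClosedForm s)
      (fun e x hx => (hαF.posSemidef e x hx).add (psd_real_smul (hθF.posSemidef e x hx) hs))
  refine false_of_growth (C₁ := C₁ + C₁) hχF hθF.isClosedForm hαF.isClosedForm hαF.isClosedForm hcl
    hθF.posSemidef hαF.posSemidef hαF.posSemidef hx hP hP hrk hν'd
    (Λ' := fun e z => cl e z + αF e z) (fun _ _ _ => rfl) hnn ?_
  refine ((eventually_ge_atTop (1 : ℝ)).mono fun s hs => ?_).frequently
  have h1 : mixX (addF αF s θF) (fun e z => cl e z + αF e z) =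
      mixX (addF αF s θF) Λ + mixX (addF αF s θF) θF :=
    mixX_add (isClosed_addF hαF.isClosedForm hθF.isClosedForm s) hχF hΛ hθF.isClosedForm
      fun e x hx => by
        show cl e (e x) + αF e (e x) = cl e (e x) - (θF e (e x) - αF e (e x)) + θF e (e x)
        abel
  rw [h1]
  have h2 := hC₁ s hs
  have h3 : (C₁ + C₁) * s ^ ν' / s = C₁ * s ^ ν' / s + C₁ * s ^ ν' / s := by ring
  rw [h3]
  exact add_le_add h2.1 h2.2

end Vale.Agent.P281.H575.MFS
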