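import Vale.Agent.P281.H575.MFS.LB
import Vale.Agent.P281.H167.GM.M2
import Vale.Agent.P281.H713.SB.S1

/-! P281, theorem MFS, block END: the last step on the fibre.  `θ`, `α ≥ 0` closed, `α > 0` on a dense
set, `rank θ < n`; `mixX (α + s θ) Λ ≥ 0` and `mixX (α + s θ) (Λ + α) ≤ C s ^ ν / s` for large `s`,
`ν` the maximal rank of `θ`, contradict each other. -/

open scoped Manifold ContDiff ComplexOrder Topology
open Complex Set Filter MeasureTheory Matrix

set_option linter.all false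

noncomputable section

namespace Vale.Agent.P281.H575.MFS

open Vale.Agent.P272.K Vale.Agent.P272.K.AMP Vale.Agent.P299.D Vale.Agent.P299 Vale.Agent.P299.H882
open Vale.Agent.P281.H167.SA Vale.Agent.P281.H167.GM
open INT (IsDensity intX IsClosedForm)

variable {n : ℕ} {X : Type} [TopologicalSpace X] [ChartedSpace (Cm n) X]
  [IsManifold 𝓘(ℂ, Cm n) ω X]
  {χ θ β α Λ Λ' : D.FormM n X}

/-- `mixX` is additive in the second variable -/
theorem mixX_add [T2Space X] [CompactSpace X] {A : D.FormM n X} (hA : IsClosedForm A)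
    (hχ : IsKahler χ) (hΛ : IsClosedForm Λ) (hα : IsClosedForm α)
    (h : ∀ e x, At e x → Λ' e (e x) = Λ e (e x) + α e (e x)) :
    mixX A Λ' = mixX A Λ + mixX A α := by
  have hd : ∀ {B : D.FormM n X}, IsClosedForm B →
      IsDensity fun (e : Chart n X) z => mixD (A e z) (B e z) := by
    intro B hB
    have h1 : (fun (e : Chart n X) z => mixD (A e z) (B e z)) = fun e z =>
        ∑ i ∈ Finset.range (n + 1), (Vale.Agent.P281.H227.GMC.lb n i).coeff 1 *
          (addF A (Vale.Agent.P281.H227.GMC.nd i) B e z).det.re := by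
      funext e z
      exact Vale.Agent.P281.H227.GMC.mixD_interp _ _
    rw [h1]
    refine IsDensity.sum _ fun i _ =>
      ((INT.isDensity_det (isForm_addF hA.form hB.form _) ?_).const_mul _)
    intro e x hx k l
    exact (hA.smooth e x hx k l).add (contDiffAt_const.mul (hB.smooth e x hx k l))
  have h1 : mixX A Λ' = intX fun (e : Chart n X) z => mixD (A e z) (Λ e z) + mixD (A e z) (α e z) := by
    refine INT.intX_congr fun e x hx => ?_
    show mixD (A e (e x)) (Λ' e (e x)) = _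
    rw [h e x hx, Vale.Agent.P281.H368.GM.mixD_add_right]
  rw [h1, INT.intX_add (hd hΛ) (hd hα)]
  rfl

/-- a lower and an upper bound which contradict each other -/
theorem false_of_growth [Nonempty X] [T2Space X] [CompactSpace X] (hχ : IsKahler χ)
    (hθ : IsClosedForm θ) (hβ : IsClosedForm β) (hα : IsClosedForm α) (hΛ : IsClosedForm Λ)
    (hθ0 : ∀ e x, At e x → (θ e (e x)).PosSemidef)
    (hβ0 : ∀ e x, At e x → (β e (e x)).PosSemidef) (hα0 : ∀ e x, At e x → (α e (e x)).PosSemidef)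
    {e : Chart n X} {x : X} (hx : At e x) (hPβ : (β e (e x)).PosDef) (hPα : (α e (e x)).PosDef)
    {ν : ℕ} (hrk : (θ e (e x)).rank = ν) (hν : ν < n)
    (hΛ' : ∀ e x, At e x → Λ' e (e x) = Λ e (e x) + α e (e x))
    (hnn : ∀ s : ℝ, 0 ≤ s → 0 ≤ mixX (addF β s θ) Λ) {C₁ : ℝ}
    (hgr : ∃ᶠ s : ℝ in atTop, mixX (addF β s θ) Λ' ≤ C₁ * s ^ ν / s) : False := by
  obtain ⟨c, hc, hlow⟩ := mixX_lower hχ hθ hβ hα hθ0 hβ0 hα0 hx hPβ hPα hrk hν
  obtain ⟨s, hs1, hs2⟩ := (hgr.and_eventually (eventually_gt_atTop (max 1 (C₁ / c)))).exists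
  have hsp : 0 < s := lt_of_lt_of_le one_pos ((le_max_left _ _).trans hs2.le)
  have h1 := hlow s hsp.le
  have h2 := hnn s hsp.le
  rw [mixX_add (isClosed_addF hβ hθ s) hχ hΛ hα hΛ'] at hs1
  have hsν : 0 < s ^ ν := pow_pos hsp ν
  have h3 : c * s ^ ν ≤ C₁ / s * s ^ ν := by
    have : C₁ * s ^ ν / s = C₁ / s * s ^ ν := by ring
    linarith
  have h4 := le_of_mul_le_mul_right h3 hsν
  rw [le_div_iff₀ hsp] at h4
  have h5 : C₁ / c < s := (le_max_right _ _).trans_lt hs2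
  rw [div_lt_iff₀ hc] at h5
  linarith

/-- a point where the rank of `θ` is maximal and `α > 0` -/
theorem exists_point [Nonempty X] (hθ : IsClosedForm θ) (hα : IsClosedForm α) (hα0 : ∀ e x, At e x → (α e (e x)).PosSemidef)
    (hd : Dense {x : X | (α (chartAt (Cm n) x) (chartAt (Cm n) x x)).PosDef}) :
    ∃ (ν : ℕ) (e : Chart n X) (x : X), At e x ∧ (α e (e x)).PosDef ∧ (θ e (e x)).rank = ν ∧
      ∀ e x, At e x → (θ e (e x)).rank ≤ ν := by
  classical
  set P : ℕ → Prop := fun r => ∃ (e : Chart n X) (x : X), At e x ∧ (θ e (e x)).rank = r with hP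
  have hPn : ∀ r, P r → r ≤ n := by
    rintro r ⟨e, x, -, rfl⟩
    simpa using Matrix.rank_le_card_width (θ e (e x))
  have hne : ∃ r, P r := by
    obtain ⟨x⟩ := ‹Nonempty X›
    exact ⟨_, chartAt (Cm n) x, x, at_chartAt x, rfl⟩
  obtain ⟨r₀, hr₀⟩ := hne
  set ν := Nat.findGreatest P n with hν
  have h1 : P ν := Nat.findGreatest_spec (hPn r₀ hr₀) hr₀
  have h2 : ∀ e x, At e x → (θ e (e x)).rank ≤ ν := fun e x hx =>
    Nat.le_findGreatest (hPn _ ⟨e, x, hx, rfl⟩) ⟨e, x, hx, rfl⟩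
  obtain ⟨e, x, hx, hr⟩ := h1
  have h3 := (Vale.Agent.P281.H713.SB.rank_lsc hθ hx hr.ge).and
    ((e.open_source.mem_nhds hx.2))
  obtain ⟨N, hN, hNo, hxN⟩ := mem_nhds_iff.1 h3
  obtain ⟨y, hyN, hy⟩ := hd.inter_open_nonempty N hNo ⟨x, hxN⟩
  obtain ⟨h4, h5⟩ := hN hyN
  have hye : At e y := ⟨hx.1, h5⟩
  exact ⟨ν, e, y, hye, posDef_chart hα.form hα0 (at_chartAt (n := n) y) hye hy,
    le_antisymm (h2 e y hye) h4, h2⟩

/-- **the last step on the fibre** -/
theorem mfs_end [Nonempty X] [T2Space X] [CompactSpace X] (hχ : IsKahler χ)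
    (hθ : IsClosedForm θ) (hα : IsClosedForm α) (hΛ : IsClosedForm Λ)
    (hθ0 : ∀ e x, At e x → (θ e (e x)).PosSemidef) (hα0 : ∀ e x, At e x → (α e (e x)).PosSemidef)
    (hd : Dense {x : X | (α (chartAt (Cm n) x) (chartAt (Cm n) x x)).PosDef})
    (hθr : ∀ e x, At e x → (θ e (e x)).rank < n)
    (hΛ' : ∀ e x, At e x → Λ' e (e x) = Λ e (e x) + α e (e x))
    (hnn : ∀ s : ℝ, 0 ≤ s → 0 ≤ mixX (addF α s θ) Λ)
    (hgr : ∀ ν : ℕ, (∀ e x, At e x → (θ e (e x)).rank ≤ ν) → (∃ e x, At e x ∧ (θ e (e x)).rank = ν) →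
      ∃ C₁ : ℝ, ∃ᶠ s : ℝ in atTop, mixX (addF α s θ) Λ' ≤ C₁ * s ^ ν / s) : False := by
  obtain ⟨ν, e, x, hx, hP, hrk, hmax⟩ := exists_point hθ hα hα0 hd
  obtain ⟨C₁, hC₁⟩ := hgr ν hmax ⟨e, x, hx, hrk⟩
  exact false_of_growth hχ hθ hα hα hΛ hθ0 hα0 hα0 hx hP hP hrk (hrk ▸ hθr e x hx) hΛ' hnn hC₁

end Vale.Agent.P281.H575.MFS
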