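import Vale.Agent.P281.H575.MFS.LB
import Vale.Agent.P281.H368.MFS.Defs
import Vale.Agent.P281.H167.GM.M2

/-! P281, theorem MFS, block LB, without a Kähler form: the lower bound
`∫ (α + s θ) ^ (n - 1) ∧ α ≥ c s ^ ν`. -/

open scoped Manifold ContDiff ComplexOrder Topology
open Complex Set Filter MeasureTheory Matrix

set_option linter.all false

noncomputable section

namespace Vale.Agent.P281.H575.MFS

open Vale.Agent.P272.K Vale.Agent.P272.K.AMP Vale.Agent.P299.D Vale.Agent.P299 Vale.Agent.P299.H882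
open Vale.Agent.P281.H167.SA Vale.Agent.P281.H167.GM
open Vale.Agent.P281.H368.GM (mixD_nonneg mixD_add_right mixD_smul_right)
open INT (IsDensity intX IsClosedForm)

variable {n : ℕ} {X : Type} [TopologicalSpace X] [ChartedSpace (Cm n) X]
  [IsManifold 𝓘(ℂ, Cm n) ω X]
  {χ θ β α A B : D.FormM n X}

/-- a semipositive closed form -/
theorem closed_of (h : H368.MFS.IsSemiPos α) : IsClosedForm α where
  smooth := h.smooth
  form := h.change
  closed e x hx i k l := h.closed e x hx k l i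

/-- the mixed discriminant is a density -/
theorem dens_mix (hA : IsClosedForm A) (hB : IsClosedForm B) :
    IsDensity fun (e : Chart n X) z => mixD (A e z) (B e z) := by
  have h1 : (fun (e : Chart n X) z => mixD (A e z) (B e z)) = fun e z =>
      ∑ i ∈ Finset.range (n + 1), (Vale.Agent.P281.H227.GMC.lb n i).coeff 1 *
        (addF A (Vale.Agent.P281.H227.GMC.nd i) B e z).det.re := by
    funext e z
    exact Vale.Agent.P281.H227.GMC.mixD_interp _ _
  rw [h1]
  refine IsDensity.sum _ fun i _ =>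
    ((INT.isDensity_det (isForm_addF hA.form hB.form _) ?_).const_mul _)
  intro e x hx k l
  exact (hA.smooth e x hx k l).add (contDiffAt_const.mul (hB.smooth e x hx k l))

/-- the lower bound for `|ξ|²_G det G` near a point, `ξ` a constant covector, `G = β + s θ` -/
theorem lower_self (hθ : IsClosedForm θ) (hβ : IsClosedForm β)
    (hθ0 : ∀ e x, At e x → (θ e (e x)).PosSemidef) (hβ0 : ∀ e x, At e x → (β e (e x)).PosSemidef)
    {e : Chart n X} {x : X} (hx : At e x)
    (hP : (β e (e x)).PosDef) (ξ : Fin n → ℂ)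
    (v : Fin n → ℂ) (hv : ∀ j, ∑ i, v i * θ e (e x) i j = 0) (hne : ∑ i, ξ i * v i ≠ 0) :
    ∃ δ : ℝ, 0 < δ ∧ ∀ᶠ y in 𝓝 x, At e y ∧ (β e (e y)).PosDef ∧ ∀ s : ℝ, 0 ≤ s →
      δ * s ^ (θ e (e x)).rank * (β e (e y)).det.re ≤ qf (addF β s θ e (e y)) ξ *
        (addF β s θ e (e y)).det.re := by
  set ν := (θ e (e x)).rank with hν
  obtain ⟨p, -, -, hp3, hp4⟩ := exists_poly_qnL ν ξ (hθ0 e x hx) hP
  have hqx : 0 < qnG θ β ν ξ e (e x) := by
    rw [hp3]; exact hp4 v hv hne
  have hqc := cont_qnL (ξ := fun _ => ξ) hθ hβ ν hx (hθ0 e x hx) hP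
    (fun _ => continuousAt_const)
  set q0 := qnG θ β ν ξ e (e x) with hq0
  refine ⟨q0 / 2, by positivity, ?_⟩
  have h5 : ∀ᶠ y in 𝓝 x, q0 / 2 < qnG θ β ν ξ e (e y) := by
    have : Tendsto (fun y => qnG θ β ν ξ e (e y)) (𝓝 x) (𝓝 q0) :=
      hqc.tendsto.comp (e.continuousAt hx.2)
    exact this.eventually (lt_mem_nhds (half_lt_self hqx))
  filter_upwards [h5, ev_posDef hβ hβ0 hx hP] with y hy5 hy7
  obtain ⟨hy, hPy⟩ := hy7
  refine ⟨hy, hPy, fun s hs => ?_⟩
  obtain ⟨p, h1, h2, h3, -⟩ := exists_poly_qnL ν ξ (hθ0 e y hy) hPy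
  have e1 : q0 / 2 * s ^ ν ≤ QsG θ β ξ e (e y) s := by
    rw [← h2 s hs]
    refine le_trans ?_ (h1.le_eval hs ν)
    rw [h3] at hy5
    exact mul_le_mul_of_nonneg_right hy5.le (pow_nonneg hs ν)
  have hβy : 0 < (β e (e y)).det.re := (Complex.pos_iff.1 hPy.det_pos).1
  have e3 : QsG θ β ξ e (e y) s =
      qf (addF β s θ e (e y)) ξ * (addF β s θ e (e y)).det.re / (β e (e y)).det.re := by
    have : chiG θ β s e (e y) = addF β s θ e (e y) := by
      simp only [chiG, addF]; rw [add_comm]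
    rw [QsG, this, mul_div_assoc]
  rwa [e3, le_div_iff₀ hβy] at e1

/-- **block LB** -/
theorem mixX_lower' [T2Space X] [CompactSpace X] (hθ : IsClosedForm θ) (hα : IsClosedForm α)
    (hθ0 : ∀ e x, At e x → (θ e (e x)).PosSemidef) (hα0 : ∀ e x, At e x → (α e (e x)).PosSemidef)
    {e : Chart n X} {x : X} (hx : At e x) (hP : (α e (e x)).PosDef)
    {ν : ℕ} (hrk : (θ e (e x)).rank = ν) (hν : ν < n) :
    ∃ c : ℝ, 0 < c ∧ ∀ s : ℝ, 0 ≤ s → c * s ^ ν ≤ mixX (addF α s θ) α := by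
  haveI : Nonempty X := ⟨x⟩
  obtain ⟨v, hv, i, hi⟩ := exists_ker (hrk.trans_lt hν)
  set ξ : Fin n → ℂ := Pi.single i 1 with hξ
  have hne : ∑ j, ξ j * v j ≠ 0 := by
    rw [hξ]
    simpa [Pi.single_apply] using hi
  obtain ⟨δ, hδ, hlow⟩ := lower_self hθ hα hθ0 hα0 hx hP ξ v hv hne
  obtain ⟨c, hc, hge⟩ := ev_ge hα hα0 hx hP ξ
  obtain ⟨N, hN, hNo, hxN⟩ := mem_nhds_iff.1 (hlow.and hge)
  obtain ⟨η, hηs, hη1, hη01⟩ := exists_tsupport_one_of_isOpen_isClosed hNo
    isClosed_closure.isCompact isClosed_singleton (Set.singleton_subset_iff.2 hxN)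
  have hηx : η x = 1 := hη1 rfl
  have hηc : Continuous fun y => η y := η.continuous
  have hd : IsDensity fun (e : Chart n X) z => (α e z).det.re :=
    INT.isDensity_det hα.form hα.smooth
  have hdη : IsDensity fun (e : Chart n X) z => η (e.symm z) * (α e z).det.re := hd.smul hηc
  have hdet0 : ∀ (e : Chart n X) y, At e y → 0 ≤ (α e (e y)).det.re := fun e y hy =>
    (Complex.le_def.1 (hα0 e y hy).det_nonneg).1
  have hIη : 0 < intX fun (e : Chart n X) z => η (e.symm z) * (α e z).det.re := by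
    refine intX_pos' hdη (fun e y hy => ?_) x fun e' he' => ?_
    · rw [hy.left_inv]
      exact mul_nonneg (hη01 y).1 (hdet0 e y hy)
    · rw [he'.left_inv, hηx, one_mul]
      exact (Complex.pos_iff.1 (posDef_chart hα.form hα0 hx he' hP).det_pos).1
  refine ⟨c * δ * intX fun (e : Chart n X) z => η (e.symm z) * (α e z).det.re, by positivity,
    fun s hs => ?_⟩
  have e1 : c * δ * (intX fun (e : Chart n X) z => η (e.symm z) * (α e z).det.re) * s ^ ν =
      intX fun (e : Chart n X) z => c * δ * s ^ ν * (η (e.symm z) * (α e z).det.re) := by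
    rw [INT.intX_const_mul]
    ring
  rw [e1]
  have d1 := hdη.const_mul (c * δ * s ^ ν)
  have d2 := dens_mix (isClosed_addF hα hθ s) hα
  have hG0 : ∀ (e : Chart n X) y, At e y → (addF α s θ e (e y)).PosSemidef := fun e y hy =>
    (hα0 e y hy).add (psd_real_smul (hθ0 e y hy) hs)
  refine INT.intX_mono d1 d2 fun e' y hy => ?_
  rw [hy.left_inv]
  have hnn : 0 ≤ mixD (addF α s θ e' (e' y)) (α e' (e' y)) := mixD_nonneg (hG0 e' y hy) (hα0 e' y hy)
  by_cases hyN : y ∈ N
  · obtain ⟨⟨hye, hPy, hl⟩, hg⟩ := hN hyN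
    have hGy : (addF α s θ e (e y)).PosDef :=
      Matrix.PosDef.add_posSemidef hPy (psd_real_smul (hθ0 e y hye) hs)
    have k1 := mixD_ge hGy hg
    have k2 := mul_le_mul_of_nonneg_left (hl s hs) hc.le
    rw [hrk] at k2
    have k3 : c * δ * s ^ ν * (η y * (α e (e y)).det.re) ≤
        mixD (addF α s θ e (e y)) (α e (e y)) := by
      refine le_trans ?_ (k2.trans k1)
      have m1 : 0 ≤ c * δ * s ^ ν * (α e (e y)).det.re := by
        have := hdet0 e y hye
        positivity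
      have m2 := mul_le_mul_of_nonneg_left (hη01 y).2 m1
      nlinarith
    have c1 := d1.change e' e y hy hye
    have c2 := d2.change e' e y hy hye
    beta_reduce at c1 c2
    rw [hy.left_inv, hye.left_inv] at c1
    rw [c1, c2]
    exact mul_le_mul_of_nonneg_right k3 (by positivity)
  · have hη0 : η y = 0 := by
      by_contra hne0
      exact hyN (hηs (subset_tsupport _ hne0))
    rw [hη0, zero_mul, mul_zero]
    exact hnn

/-- the text of `LowPartM` -/
theorem lowPart : ∀ (n : ℕ) (X : Type) [TopologicalSpace X] [T2Space X] [CompactSpace X]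
    [ConnectedSpace X] [ChartedSpace (Cm n) X] [IsManifold 𝓘(ℂ, Cm n) ω X]
    (α θ : D.FormM n X) (_ : H368.MFS.IsSemiPos α) (_ : H368.MFS.IsSemiPos θ) (ν : ℕ) (_ : ν < n)
    (e : Chart n X) (x : X) (_ : At e x) (_ : (α e (e x)).PosDef) (_ : (θ e (e x)).rank = ν),
    ∃ c : ℝ, 0 < c ∧ ∀ s : ℝ, 1 ≤ s → c * s ^ ν ≤ mixX (addF α s θ) α := by
  intro n X _ _ _ _ _ _ α θ hα hθ ν hν e x hx hP hrk
  obtain ⟨c, hc, h⟩ := mixX_lower' (closed_of hθ) (closed_of hα) hθ.posSemidef hα.posSemidef hx hP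
    hrk hν
  exact ⟨c, hc, fun s hs => h s (zero_le_one.trans hs)⟩

end Vale.Agent.P281.H575.MFS
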