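import Vale.Agent.P281.H167.GM.Est
import Vale.Agent.P281.H368.GM.K2
import Vale.Agent.P281.H227.GMC

/-! P281, theorem MFS, block LB: the lower bound `∫ (β + s θ) ^ (n - 1) ∧ α ≥ c s ^ ν`, `ν` the rank of
`θ` at a point where `β` and `α` are positive definite, `ν < n`. -/

open scoped Manifold ContDiff ComplexOrder Topology
open Complex Set Filter MeasureTheory Matrix

set_option linter.all false

noncomputable section

namespace Vale.Agent.P281.H575.MFS

open Vale.Agent.P272.K Vale.Agent.P272.K.AMP Vale.Agent.P299.D Vale.Agent.P299 Vale.Agent.P299.H882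
open Vale.Agent.P281.H167.SA Vale.Agent.P281.H167.GM
open Vale.Agent.P281.H368.GM (mixD_nonneg mixD_add_right mixD_smul_right)
open INT (IsDensity intX IsClosedForm)

section mat

variable {n : ℕ}

/-- a vector in the kernel -/
lemma exists_ker {θ : Matrix (Fin n) (Fin n) ℂ} (h : θ.rank < n) :
    ∃ v : Fin n → ℂ, (∀ j, ∑ i, v i * θ i j = 0) ∧ ∃ i, v i ≠ 0 := by
  have h1 : θ.det = 0 := by
    by_contra hne
    have := Matrix.rank_of_isUnit θ ((Matrix.isUnit_iff_isUnit_det θ).2 (isUnit_iff_ne_zero.2 hne))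
    rw [Fintype.card_fin] at this
    omega
  obtain ⟨v, hv, hv0⟩ := Matrix.exists_vecMul_eq_zero_iff.2 h1
  refine ⟨v, fun j => ?_, ?_⟩
  · have := congrFun hv0 j
    simpa [Matrix.vecMul, dotProduct] using this
  · by_contra hc
    push Not at hc
    exact hv (funext hc)

/-- `tr (adj G A) ≥ c |ξ|²_G det G` when `A ≥ c ξ ξ*` -/
lemma mixD_ge {G A : Matrix (Fin n) (Fin n) ℂ} (hG : G.PosDef) {ξ : Fin n → ℂ} {c : ℝ}
    (h : (A - (c : ℂ) • vecMulVec ξ (star ξ)).PosSemidef) : c * (qf G ξ * G.det.re) ≤ mixD G A := by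
  have h1 := mixD_nonneg hG.posSemidef h
  have h2 : A = (A - (c : ℂ) • vecMulVec ξ (star ξ)) + (c : ℂ) • vecMulVec ξ (star ξ) := by
    rw [sub_add_cancel]
  have h3 : mixD G (vecMulVec ξ (star ξ)) = qf G ξ * G.det.re := mixD_eq hG _
  rw [h2, mixD_add_right, mixD_smul_right, h3]
  linarith

end mat

variable {n : ℕ} {X : Type} [TopologicalSpace X] [ChartedSpace (Cm n) X]
  [IsManifold 𝓘(ℂ, Cm n) ω X]
  {χ θ β α : D.FormM n X}

/-- the lower bound for `|ξ|²_G det G` near a point, `ξ` a constant covector -/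
theorem lower_const (hθ : IsClosedForm θ) (hβ : IsClosedForm β)
    (hθ0 : ∀ e x, At e x → (θ e (e x)).PosSemidef) (hβ0 : ∀ e x, At e x → (β e (e x)).PosSemidef)
    (hχ : IsKahler χ) {e : Chart n X} {x : X} (hx : At e x)
    (hP : (β e (e x)).PosDef) (ξ : Fin n → ℂ)
    (v : Fin n → ℂ) (hv : ∀ j, ∑ i, v i * θ e (e x) i j = 0) (hne : ∑ i, ξ i * v i ≠ 0) :
    ∃ δ : ℝ, 0 < δ ∧ ∀ᶠ y in 𝓝 x, At e y ∧ ∀ s ε : ℝ, 0 ≤ s → 0 ≤ ε →
      δ * s ^ (θ e (e x)).rank * (χ e (e y)).det.re ≤ qf (addF (addF β s θ) ε χ e (e y)) ξ *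
        (addF (addF β s θ) ε χ e (e y)).det.re := by
  set ν := (θ e (e x)).rank with hν
  obtain ⟨p, -, -, hp3, hp4⟩ := exists_poly_qnL ν ξ (hθ0 e x hx) hP
  have hqx : 0 < qnG θ β ν ξ e (e x) := by
    rw [hp3]; exact hp4 v hv hne
  have hqc := cont_qnL (ξ := fun _ => ξ) hθ hβ ν hx (hθ0 e x hx) hP
    (fun _ => continuousAt_const)
  have hwx : 0 < (χ e (e x)).det.re := hχ.toIsHermitian.det_re_pos hx
  have hβx : 0 < (β e (e x)).det.re := (Complex.pos_iff.1 hP.det_pos).1
  set q0 := qnG θ β ν ξ e (e x) with hq0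
  have hrc : ContinuousAt (fun z => (β e z).det.re / (χ e z).det.re) (e x) := by
    refine ContinuousAt.div ?_ ?_ hwx.ne'
    · exact Complex.continuous_re.continuousAt.comp
        (contDiffAt_det (m := ∞) (hβ.smooth e x hx)).continuousAt
    · exact Complex.continuous_re.continuousAt.comp
        (contDiffAt_det (m := ∞) (hχ.smooth e x hx)).continuousAt
  set r0 := (β e (e x)).det.re / (χ e (e x)).det.re with hr0
  have hr0p : 0 < r0 := div_pos hβx hwx
  refine ⟨q0 / 2 * (r0 / 2), by positivity, ?_⟩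
  have h5 : ∀ᶠ y in 𝓝 x, q0 / 2 < qnG θ β ν ξ e (e y) := by
    have : Tendsto (fun y => qnG θ β ν ξ e (e y)) (𝓝 x) (𝓝 q0) :=
      hqc.tendsto.comp (e.continuousAt hx.2)
    exact this.eventually (lt_mem_nhds (half_lt_self hqx))
  have h6 : ∀ᶠ y in 𝓝 x, r0 / 2 < (β e (e y)).det.re / (χ e (e y)).det.re := by
    have : Tendsto (fun y => (β e (e y)).det.re / (χ e (e y)).det.re) (𝓝 x) (𝓝 r0) :=
      hrc.tendsto.comp (e.continuousAt hx.2)
    exact this.eventually (lt_mem_nhds (half_lt_self hr0p))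
  filter_upwards [h5, h6, ev_posDef hβ hβ0 hx hP] with y hy5 hy6 hy7
  obtain ⟨hy, hPy⟩ := hy7
  refine ⟨hy, fun s ε hs hε => ?_⟩
  obtain ⟨p, h1, h2, h3, -⟩ := exists_poly_qnL ν ξ (hθ0 e y hy) hPy
  have e1 : q0 / 2 * s ^ ν ≤ QsG θ β ξ e (e y) s := by
    rw [← h2 s hs]
    refine le_trans ?_ (h1.le_eval hs ν)
    rw [h3] at hy5
    exact mul_le_mul_of_nonneg_right hy5.le (pow_nonneg hs ν)
  have hwy : 0 < (χ e (e y)).det.re := hχ.toIsHermitian.det_re_pos hy
  have hβy : 0 < (β e (e y)).det.re := (Complex.pos_iff.1 hPy.det_pos).1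
  have hA : (addF β s θ e (e y)).PosDef := by
    have := pencil_posDef hPy (hθ0 e y hy) hs
    rwa [add_comm] at this
  have e2 := qf_det_mono hA (hχ.posDef e y hy).posSemidef ξ hε
  have e3 : QsG θ β ξ e (e y) s =
      qf (addF β s θ e (e y)) ξ * (addF β s θ e (e y)).det.re / (β e (e y)).det.re := by
    have : chiG θ β s e (e y) = addF β s θ e (e y) := by
      simp only [chiG, addF]; rw [add_comm]
    rw [QsG, this, mul_div_assoc]
  have e4 : q0 / 2 * s ^ ν * (r0 / 2) ≤ QsG θ β ξ e (e y) s *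
      ((β e (e y)).det.re / (χ e (e y)).det.re) :=
    mul_le_mul e1 hy6.le (by positivity) ((by positivity : (0:ℝ) ≤ q0 / 2 * s ^ ν).trans e1)
  have e5 : QsG θ β ξ e (e y) s * ((β e (e y)).det.re / (χ e (e y)).det.re) =
      qf (addF β s θ e (e y)) ξ * (addF β s θ e (e y)).det.re / (χ e (e y)).det.re := by
    rw [e3]
    field_simp
  have e6 : q0 / 2 * (r0 / 2) * s ^ ν ≤ qf (addF (addF β s θ) ε χ e (e y)) ξ *
      (addF (addF β s θ) ε χ e (e y)).det.re / (χ e (e y)).det.re := by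
    calc q0 / 2 * (r0 / 2) * s ^ ν = q0 / 2 * s ^ ν * (r0 / 2) := by ring
      _ ≤ qf (addF β s θ e (e y)) ξ * (addF β s θ e (e y)).det.re / (χ e (e y)).det.re := by
          rw [← e5]; exact e4
      _ ≤ qf (addF β s θ e (e y) + (ε : ℂ) • χ e (e y)) ξ *
          (addF β s θ e (e y) + (ε : ℂ) • χ e (e y)).det.re / (χ e (e y)).det.re :=
          div_le_div_of_nonneg_right e2 hwy.le
      _ = _ := rfl
  rwa [le_div_iff₀ hwy] at e6

/-- `α ≥ c ξ ξ*` near a point where `α` is positive definite -/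
lemma ev_ge (hα : IsClosedForm α) (hα0 : ∀ e x, At e x → (α e (e x)).PosSemidef)
    {e : Chart n X} {x : X} (hx : At e x) (hP : (α e (e x)).PosDef) (ξ : Fin n → ℂ) :
    ∃ c : ℝ, 0 < c ∧ ∀ᶠ y in 𝓝 x, (α e (e y) - (c : ℂ) • vecMulVec ξ (star ξ)).PosSemidef := by
  obtain ⟨ε, hε, hnear⟩ := N.posDef_of_near hP
  set K : ℝ := ∑ i, ∑ j, ‖ξ i‖ * ‖ξ j‖ with hK
  have hK0 : 0 ≤ K := Finset.sum_nonneg fun i _ => Finset.sum_nonneg fun j _ => by positivity
  have hle : ∀ i j, ‖ξ i‖ * ‖ξ j‖ ≤ K := fun i j =>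
    (Finset.single_le_sum (f := fun j => ‖ξ i‖ * ‖ξ j‖) (fun j _ => by positivity)
      (Finset.mem_univ j)).trans (Finset.single_le_sum (f := fun i => ∑ j, ‖ξ i‖ * ‖ξ j‖)
      (fun i _ => Finset.sum_nonneg fun j _ => by positivity) (Finset.mem_univ i))
  set c : ℝ := ε / (2 * (K + 1)) with hc
  have hc0 : 0 < c := by positivity
  have hcK : c * K ≤ ε / 2 := by
    rw [hc, div_mul_eq_mul_div, div_le_div_iff₀ (by positivity) (by norm_num)]
    nlinarith
  refine ⟨c, hc0, ?_⟩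
  have h1 : ∀ i j, ∀ᶠ y in 𝓝 x, ‖α e (e y) i j - α e (e x) i j‖ < ε / 2 := by
    intro i j
    have h2 : ContinuousAt (fun y => α e (e y) i j) x :=
      ((hα.smooth e x hx i j).continuousAt).comp (f := e) (e.continuousAt hx.2)
    have h3 := Metric.continuousAt_iff'.1 h2 (ε / 2) (by positivity)
    simpa only [dist_eq_norm] using h3
  have h4 : ∀ᶠ y in 𝓝 x, At e y := by
    filter_upwards [e.open_source.mem_nhds hx.2] with y hy using ⟨hx.1, hy⟩
  have h5 : ∀ᶠ y in 𝓝 x, ∀ i j, ‖α e (e y) i j - α e (e x) i j‖ < ε / 2 := by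
    rw [eventually_all]
    intro i
    rw [eventually_all]
    exact h1 i
  filter_upwards [h4, h5] with y hy hy2
  refine (hnear _ ?_ fun i j => ?_).posSemidef
  · have a1 : (vecMulVec ξ (star ξ)).IsHermitian := (Matrix.posSemidef_vecMulVec_self_star ξ).1
    have a2 : (((c : ℂ)) • vecMulVec ξ (star ξ)).IsHermitian := by
      rw [Matrix.IsHermitian, Matrix.conjTranspose_smul, a1.eq]
      simp
    exact (hα0 e y hy).1.sub a2
  · have b1 := hy2 i j
    have b2 : ‖((c : ℂ) • vecMulVec ξ (star ξ)) i j‖ ≤ ε / 2 := by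
      simp only [Matrix.smul_apply, vecMulVec_apply, Pi.star_apply, smul_eq_mul, norm_mul,
        norm_star, Complex.norm_real, Real.norm_eq_abs, abs_of_pos hc0]
      exact (mul_le_mul_of_nonneg_left (hle i j) hc0.le).trans hcK
    have b3 : (α e (e y) - (c : ℂ) • vecMulVec ξ (star ξ)) i j - α e (e x) i j =
        (α e (e y) i j - α e (e x) i j) - ((c : ℂ) • vecMulVec ξ (star ξ)) i j := by
      simp only [Matrix.sub_apply]
      ring
    rw [b3]
    refine (norm_sub_le _ _).trans ?_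
    linarith

section cpt

variable [T2Space X] [CompactSpace X]

lemma mixX_eq_J {B : D.FormM n X} (hg : IsKahler χ) (hB : IsClosedForm B) :
    mixX χ B = J χ (trX χ B) := (J_trX hg.toIsHermitian hB.form).symm

/-- **block LB** -/
theorem mixX_lower [Nonempty X] (hχ : IsKahler χ) (hθ : IsClosedForm θ) (hβ : IsClosedForm β)
    (hα : IsClosedForm α) (hθ0 : ∀ e x, At e x → (θ e (e x)).PosSemidef)
    (hβ0 : ∀ e x, At e x → (β e (e x)).PosSemidef) (hα0 : ∀ e x, At e x → (α e (e x)).PosSemidef)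
    {e : Chart n X} {x : X} (hx : At e x) (hPβ : (β e (e x)).PosDef) (hPα : (α e (e x)).PosDef)
    {ν : ℕ} (hrk : (θ e (e x)).rank = ν) (hν : ν < n) :
    ∃ c : ℝ, 0 < c ∧ ∀ s : ℝ, 0 ≤ s → c * s ^ ν ≤ mixX (addF β s θ) α := by
  have hχH := hχ.toIsHermitian
  obtain ⟨v, hv, i, hi⟩ := exists_ker (hrk.trans_lt hν)
  set ξ : Fin n → ℂ := Pi.single i 1 with hξ
  have hne : ∑ j, ξ j * v j ≠ 0 := by
    rw [hξ]
    simpa [Pi.single_apply] using hi
  obtain ⟨δ, hδ, hlow⟩ := lower_const hθ hβ hθ0 hβ0 hχ hx hPβ ξ v hv hne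
  obtain ⟨c, hc, hge⟩ := ev_ge hα hα0 hx hPα ξ
  obtain ⟨N, hN, hNo, hxN⟩ := mem_nhds_iff.1 (hlow.and hge)
  obtain ⟨η, hηs, hη1, hη01⟩ := exists_tsupport_one_of_isOpen_isClosed hNo
    isClosed_closure.isCompact isClosed_singleton (Set.singleton_subset_iff.2 hxN)
  have hηx : η x = 1 := hη1 rfl
  have hηc : Continuous fun y => η y := η.continuous
  have hIη : 0 < J χ (fun y => η y) :=
    J_pos_of hχH hηc (fun y => (hη01 y).1) (x := x) (by rw [hηx]; exact one_pos)
  refine ⟨c * δ * J χ (fun y => η y), by positivity, fun s hs => ?_⟩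
  have step1 : ∀ ε : ℝ, 0 < ε →
      c * δ * J χ (fun y => η y) * s ^ ν ≤ mixX (addF (addF β s θ) ε χ) α := by
    intro ε hε
    have hG : IsKahler (addF (addF β s θ) ε χ) := isKahler_G hχ hθ hβ hθ0 hβ0 hs hε
    set G : D.FormM n X := addF (addF β s θ) ε χ with hGdef
    have hGH := hG.toIsHermitian
    have ctr : Continuous (trX G α) := sm_continuous (smoothFn_trX hGH hα.form hα.smooth)
    have e1 : c * δ * J χ (fun y => η y) * s ^ ν = J χ (fun y => c * δ * s ^ ν * η y) := by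
      rw [J_const_mul]
      ring
    rw [e1, ← J_trX hGH hα.form]
    have d1 := J_dens (f := fun y => c * δ * s ^ ν * η y) hχH (continuous_const.mul hηc)
    have d2 := J_dens hGH ctr
    refine INT.intX_mono d1 d2 fun e' y hy => ?_
    rw [hy.left_inv]
    have hGd : 0 < (G e' (e' y)).det.re := hGH.det_re_pos hy
    have hmix : trX G α y * (G e' (e' y)).det.re = mixD (G e' (e' y)) (α e' (e' y)) := by
      rw [trX_eq hGH hα.form hy, mixD_eq (hGH.posDef e' y hy)]
      rfl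
    have hnn : 0 ≤ trX G α y * (G e' (e' y)).det.re := by
      rw [hmix]
      exact mixD_nonneg (hGH.posDef e' y hy).posSemidef (hα0 e' y hy)
    by_cases hyN : y ∈ N
    · obtain ⟨⟨hye, hl⟩, hg⟩ := hN hyN
      have hmix' : trX G α y * (G e (e y)).det.re = mixD (G e (e y)) (α e (e y)) := by
        rw [trX_eq hGH hα.form hye, mixD_eq (hGH.posDef e y hye)]
        rfl
      have k1 := mixD_ge (hGH.posDef e y hye) hg
      have k2 := mul_le_mul_of_nonneg_left (hl s ε hs hε.le) hc.le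
      rw [hrk] at k2
      have k3 : c * δ * s ^ ν * η y * (χ e (e y)).det.re ≤ trX G α y * (G e (e y)).det.re := by
        rw [hmix']
        refine le_trans ?_ (k2.trans k1)
        have m1 : 0 ≤ c * δ * s ^ ν * (χ e (e y)).det.re := by
          have := hχH.det_re_pos hye
          positivity
        have m2 := mul_le_mul_of_nonneg_left (hη01 y).2 m1
        nlinarith
      -- change of chart
      have c1 := d1.change e' e y hy hye
      have c2 := d2.change e' e y hy hye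
      beta_reduce at c1 c2
      rw [hy.left_inv, hye.left_inv] at c1 c2
      rw [c1, c2]
      exact mul_le_mul_of_nonneg_right k3 (by positivity)
    · have hη0 : η y = 0 := by
        by_contra hne0
        exact hyN (hηs (subset_tsupport _ hne0))
      beta_reduce
      rw [hη0, mul_zero, zero_mul]
      exact hnn
  refine ge_of_tendsto (Vale.Agent.P281.H227.GMC.epsPart n X (addF β s θ) α χ
    (isClosed_addF hβ hθ s) hα (INT.IsKahler.isClosedForm hχ)) ?_
  filter_upwards [self_mem_nhdsWithin] with ε hε using step1 ε hε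

end cpt

end Vale.Agent.P281.H575.MFS
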